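import Vale.Agent.P181.TRT.Defs
import Vale.Agent.P181.DG4a.Core
import Vale.Agent.P181.SZR5b.Mark
import Vale.Agent.P181.TL.H639.BalB

set_option autoImplicit false

/-!
# P181, TRT (TR6): a content with all entries `≤ s` is better than one with all entries `≥ s`
-/

open MvPolynomial

namespace Vale.Agent.P181.TRT.H23

open Vale.Agent.P181.T4 (HW mem_HW_iff_isWeightedHomogeneous)
open Vale.Agent.P181.SZR3 (itD mem_HW_itD)
open Vale.Agent.P181.DG4a (mvu colH_mvu itD_inj)
open Vale.Agent.P181.SZR5b
open Vale.Agent.P181.TL (KK)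

section

variable {m : ℕ} {σ τ : Type} [Fintype σ] [Fintype τ]

/-- A transfer of `D` units from the column `c` to the column `a`. -/
lemma transfer [DecidableEq σ] {a c : σ} (hac : a ≠ c) (d : σ → ℕ) (mu : Fin m → ℕ) (D : ℕ)
    (h : D + d a ≤ d c) :
    Module.finrank ℂ (KK m σ d mu) ≤ Module.finrank ℂ (KK m σ (mvu d a c D) mu) := by
  let φ : KK m σ d mu →ₗ[ℂ] KK m σ (mvu d a c D) mu :=
    (itD a c D).restrict (fun f hf => ⟨mem_HW_itD hf.1 D, colH_mvu hac hf.2 D (by omega)⟩)
  refine LinearMap.finrank_le_finrank_of_injective (f := φ) ?_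
  rw [← LinearMap.ker_eq_bot, LinearMap.ker_eq_bot']
  intro f hf
  have h0 : itD a c D (f : MvPolynomial (Fin m × σ) ℂ) = 0 := congrArg Subtype.val hf
  exact Subtype.ext (itD_inj hac (d a) D d f.1 f.2.2 rfl h h0)

/-- The letters of content `0` may be added. -/
lemma finrank_up {e : σ → τ} (he : Function.Injective e) {d : σ → ℕ} {d' : τ → ℕ}
    (h1 : ∀ j, d' (e j) = d j) (h2 : ∀ j, j ∉ Set.range e → d' j = 0) (mu : Fin m → ℕ) :
    Module.finrank ℂ (KK m σ d mu) ≤ Module.finrank ℂ (KK m τ d' mu) := by
  let φ : KK m σ d mu →ₗ[ℂ] KK m τ d' mu :=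
    (rename (rc m e)).toLinearMap.restrict
      (fun f hf => ⟨HW_rename e hf.1, col_rename he h1 h2 hf.2⟩)
  refine LinearMap.finrank_le_finrank_of_injective (f := φ) ?_
  intro f g hfg
  exact Subtype.ext (rename_injective _ (rc_inj he) (congrArg Subtype.val hfg))

/-- The letters of content `0` may be removed. -/
lemma finrank_down {e : σ → τ} (he : Function.Injective e) {d : σ → ℕ} {d' : τ → ℕ}
    (h1 : ∀ j, d' (e j) = d j) (h2 : ∀ j, j ∉ Set.range e → d' j = 0) (mu : Fin m → ℕ) :
    Module.finrank ℂ (KK m τ d' mu) ≤ Module.finrank ℂ (KK m σ d mu) := by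
  have hle : KK m τ d' mu ≤ (KK m σ d mu).map (rename (R := ℂ) (rc m e)).toLinearMap := by
    intro f hf
    obtain ⟨g, hg⟩ := exists_rename_eq_of_vars_subset_range f (rc m e) (rc_inj he) (by
      rintro ⟨i, j⟩ hij
      rw [Finset.mem_coe, mem_vars_iff_mem_support] at hij
      obtain ⟨v, hv, hvij⟩ := hij
      by_contra hno
      have hj : j ∉ Set.range e := by
        rintro ⟨x, rfl⟩
        exact hno ⟨(i, x), rfl⟩
      have h3 := hf.2 v (mem_support_iff.1 hv) j
      rw [h2 j hj, Finset.sum_eq_zero_iff] at h3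
      exact Finsupp.mem_support_iff.1 hvij (h3 i (Finset.mem_univ i)))
    refine ⟨g, ⟨?_, fun v hv j => ?_⟩, hg⟩
    · have hf1 := hf.1
      rw [← hg] at hf1
      rw [mem_HW_iff_isWeightedHomogeneous] at hf1 ⊢
      refine ⟨fun v hv => ?_, fun s i hsi => ?_⟩
      · have h3 : coeff (Finsupp.mapDomain (rc m e) v) (rename (rc m e) g) ≠ 0 := by
          rwa [coeff_rename_mapDomain _ (rc_inj he)]
        have h4 := Finsupp.sum_mapDomain_index (f := rc m e) (s := v)
          (h := fun i c => c • T4.rowW m τ i) (fun b => zero_smul _ _)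
          (fun b m₁ m₂ => add_smul _ _ _)
        rw [← hf1.1 h3, Finsupp.weight_apply, Finsupp.weight_apply, h4]
        rfl
      · have h3 := hf1.2 s i hsi
        rw [rowOp_rename] at h3
        exact rename_injective _ (rc_inj he) (by rw [h3, map_zero])
    · have h3 : coeff (Finsupp.mapDomain (rc m e) v) f ≠ 0 := by
        rwa [← hg, coeff_rename_mapDomain _ (rc_inj he)]
      rw [← h1, ← hf.2 _ h3 (e j)]
      exact Finset.sum_congr rfl fun i _ =>
        (Finsupp.mapDomain_apply (rc_inj he) v (i, j)).symm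
  exact (Submodule.finrank_mono hle).trans (Submodule.finrank_map_le _ _)

/-- the targets `T` are filled from the sources `S` and the partial source `j0` -/
lemma fill [DecidableEq σ] (mu : Fin m → ℕ) (s : ℕ) (u : σ → ℕ) (hu : ∀ j, u j ≤ s)
    (T : Finset σ) : ∀ (S : Finset σ) (j0 : σ) (d : σ → ℕ), Disjoint S T → j0 ∉ S → j0 ∉ T →
      (∀ j ∈ S, s ≤ d j) → (∀ i ∈ T, d i = 0) → ∑ j ∈ S, d j + d j0 = ∑ i ∈ T, u i →
      Module.finrank ℂ (KK m σ d mu) ≤ Module.finrank ℂ
        (KK m σ (fun x => if x ∈ T then u x else if x ∈ S ∨ x = j0 then 0 else d x) mu) := by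
  induction T using Finset.induction with
  | empty =>
    intro S j0 d _ _ _ _ _ hsum
    rw [Finset.sum_empty] at hsum
    have e : (fun x => if x ∈ (∅ : Finset σ) then u x else if x ∈ S ∨ x = j0 then 0 else d x) =
        d := by
      funext x
      rw [if_neg (Finset.notMem_empty x)]
      split_ifs with h
      · rcases h with h | h
        · have h1 : ∑ j ∈ S, d j = 0 := by omega
          exact (Finset.sum_eq_zero_iff.1 h1 x h).symm
        · rw [h]
          omega
      · rfl
    rw [e]
  | insert i T hi ih =>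
    intro S j0 d hST hj0S hj0T hS hT hsum
    rw [Finset.sum_insert hi] at hsum
    have hdi : d i = 0 := hT i (Finset.mem_insert_self _ _)
    have hij0 : i ≠ j0 := fun h => hj0T (h ▸ Finset.mem_insert_self _ _)
    have hiS : i ∉ S := fun h => Finset.disjoint_left.1 hST h (Finset.mem_insert_self _ _)
    have hj0T' : j0 ∉ T := fun h => hj0T (Finset.mem_insert_of_mem h)
    have hST' : Disjoint S T := Finset.disjoint_of_subset_right (Finset.subset_insert _ _) hST
    by_cases hz : u i ≤ d j0
    · refine (transfer hij0 d mu (u i) (by omega)).trans ?_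
      refine (ih S j0 (mvu d i j0 (u i)) hST' hj0S hj0T' ?_ ?_ ?_).trans (le_of_eq ?_)
      · intro j hj
        have h1 : j ≠ i := fun h => hiS (h ▸ hj)
        have h2 : j ≠ j0 := fun h => hj0S (h ▸ hj)
        rw [mvu, if_neg h1, if_neg h2]
        exact hS j hj
      · intro x hx
        have h1 : x ≠ i := fun h => hi (h ▸ hx)
        have h2 : x ≠ j0 := fun h => hj0T' (h ▸ hx)
        rw [mvu, if_neg h1, if_neg h2]
        exact hT x (Finset.mem_insert_of_mem hx)
      · have h1 : ∑ j ∈ S, mvu d i j0 (u i) j = ∑ j ∈ S, d j := by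
          refine Finset.sum_congr rfl fun j hj => ?_
          have h1 : j ≠ i := fun h => hiS (h ▸ hj)
          have h2 : j ≠ j0 := fun h => hj0S (h ▸ hj)
          rw [mvu, if_neg h1, if_neg h2]
        have h2 : mvu d i j0 (u i) j0 = d j0 - u i := by
          rw [mvu, if_neg hij0.symm, if_pos rfl]
        rw [h1, h2]
        omega
      · refine congrArg (fun D : σ → ℕ => Module.finrank ℂ (KK m σ D mu)) (funext fun x => ?_)
        by_cases hxi : x = i
        · subst hxi
          have h3 : ¬ (x ∈ S ∨ x = j0) := fun h => h.elim hiS hij0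
          rw [if_neg hi, if_neg h3, if_pos (Finset.mem_insert_self _ _), mvu, if_pos rfl, hdi,
            zero_add]
        · have h3 : (x ∈ insert i T) = (x ∈ T) := by
            rw [Finset.mem_insert, eq_iff_iff]
            exact ⟨fun h => h.resolve_left hxi, Or.inr⟩
          simp only [h3]
          by_cases hxT : x ∈ T
          · rw [if_pos hxT, if_pos hxT]
          · rw [if_neg hxT, if_neg hxT]
            by_cases hxS : x ∈ S ∨ x = j0
            · rw [if_pos hxS, if_pos hxS]
            · rw [if_neg hxS, if_neg hxS, mvu, if_neg hxi, if_neg fun h => hxS (Or.inr h)]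
    · obtain ⟨j1, hj1⟩ : S.Nonempty := by
        rw [Finset.nonempty_iff_ne_empty]
        rintro rfl
        rw [Finset.sum_empty] at hsum
        have := Nat.zero_le (∑ i ∈ T, u i)
        omega
      have hij1 : i ≠ j1 := fun h => hiS (h ▸ hj1)
      have hj01 : j0 ≠ j1 := fun h => hj0S (h ▸ hj1)
      have hj1T : j1 ∉ T := fun h => Finset.disjoint_left.1 hST' hj1 h
      have hsj := hS j1 hj1
      have hui := hu i
      set d1 := mvu d i j0 (d j0) with hd1
      have e1 : d1 i = d j0 := by
        rw [hd1, mvu, if_pos rfl, hdi, zero_add]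
      have e2 : d1 j0 = 0 := by
        rw [hd1, mvu, if_neg hij0.symm, if_pos rfl, Nat.sub_self]
      have e3 : ∀ x, x ≠ i → x ≠ j0 → d1 x = d x := by
        intro x h1 h2
        rw [hd1, mvu, if_neg h1, if_neg h2]
      set d2 := mvu d1 i j1 (u i - d j0) with hd2
      have f1 : d2 i = u i := by
        rw [hd2, mvu, if_pos rfl, e1]
        omega
      have f2 : d2 j1 = d j1 - (u i - d j0) := by
        rw [hd2, mvu, if_neg hij1.symm, if_pos rfl, e3 _ hij1.symm hj01.symm]
      have f3 : ∀ x, x ≠ i → x ≠ j1 → d2 x = d1 x := by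
        intro x h1 h2
        rw [hd2, mvu, if_neg h1, if_neg h2]
      refine (transfer hij0 d mu (d j0) (by omega)).trans ?_
      rw [← hd1]
      refine (transfer hij1 d1 mu (u i - d j0) (by
        rw [e1, e3 _ hij1.symm hj01.symm]
        omega)).trans ?_
      rw [← hd2]
      refine (ih (S.erase j1) j1 d2 ?_ (Finset.notMem_erase _ _) hj1T ?_ ?_ ?_).trans
        (le_of_eq ?_)
      · exact Finset.disjoint_of_subset_left (Finset.erase_subset _ _) hST'
      · intro j hj
        have hjS := Finset.mem_of_mem_erase hj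
        have h1 : j ≠ i := fun h => hiS (h ▸ hjS)
        have h2 : j ≠ j0 := fun h => hj0S (h ▸ hjS)
        rw [f3 j h1 (Finset.ne_of_mem_erase hj), e3 j h1 h2]
        exact hS j hjS
      · intro x hx
        have h1 : x ≠ i := fun h => hi (h ▸ hx)
        have h2 : x ≠ j0 := fun h => hj0T' (h ▸ hx)
        have h4 : x ≠ j1 := fun h => hj1T (h ▸ hx)
        rw [f3 x h1 h4, e3 x h1 h2]
        exact hT x (Finset.mem_insert_of_mem hx)
      · have h1 : ∑ j ∈ S.erase j1, d2 j = ∑ j ∈ S.erase j1, d j := by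
          refine Finset.sum_congr rfl fun j hj => ?_
          have hjS := Finset.mem_of_mem_erase hj
          have h1 : j ≠ i := fun h => hiS (h ▸ hjS)
          have h2 : j ≠ j0 := fun h => hj0S (h ▸ hjS)
          rw [f3 j h1 (Finset.ne_of_mem_erase hj), e3 j h1 h2]
        have h2 := Finset.sum_erase_add S d hj1
        rw [h1, f2]
        omega
      · refine congrArg (fun D : σ → ℕ => Module.finrank ℂ (KK m σ D mu)) (funext fun x => ?_)
        by_cases hxi : x = i
        · subst hxi
          have h3 : ¬ (x ∈ S.erase j1 ∨ x = j1) := fun h =>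
            h.elim (fun h => hiS (Finset.mem_of_mem_erase h)) hij1
          rw [if_neg hi, if_neg h3, if_pos (Finset.mem_insert_self _ _), f1]
        · have h3 : (x ∈ insert i T) = (x ∈ T) := by
            rw [Finset.mem_insert, eq_iff_iff]
            exact ⟨fun h => h.resolve_left hxi, Or.inr⟩
          simp only [h3]
          by_cases hxT : x ∈ T
          · rw [if_pos hxT, if_pos hxT]
          · rw [if_neg hxT, if_neg hxT]
            by_cases hx1 : x = j1
            · rw [if_pos (Or.inr hx1), if_pos (Or.inl (hx1 ▸ hj1))]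
            · by_cases hx0 : x = j0
              · have g1 : ¬ (x ∈ S.erase j1 ∨ x = j1) := fun h =>
                  h.elim (fun h => hj0S (hx0 ▸ Finset.mem_of_mem_erase h)) hx1
                rw [if_neg g1, if_pos (Or.inr hx0), hx0, f3 _ hij0.symm hj01, e2]
              · by_cases hxS : x ∈ S
                · rw [if_pos (Or.inl hxS), if_pos (Or.inl (Finset.mem_erase.2 ⟨hx1, hxS⟩))]
                · have g1 : ¬ (x ∈ S.erase j1 ∨ x = j1) := fun h =>
                    h.elim (fun h => hxS (Finset.mem_of_mem_erase h)) hx1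
                  have g2 : ¬ (x ∈ S ∨ x = j0) := fun h => h.elim hxS hx0
                  rw [if_neg g1, if_neg g2, f3 x hxi hx1, e3 x hxi hx0]

end

/-- **(TR6)** -/
theorem majT : MajT := by
  classical
  intro m s α β _ _ c u mu hc hu hsum
  let eα : α → (α ⊕ β) ⊕ Unit := fun x => Sum.inl (Sum.inl x)
  let eβ : β → (α ⊕ β) ⊕ Unit := fun x => Sum.inl (Sum.inr x)
  have hα : Function.Injective eα := Sum.inl_injective.comp Sum.inl_injective
  have hβ : Function.Injective eβ := Sum.inl_injective.comp Sum.inr_injective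
  let d : (α ⊕ β) ⊕ Unit → ℕ := Sum.elim (Sum.elim c fun _ => 0) fun _ => 0
  let U : (α ⊕ β) ⊕ Unit → ℕ := Sum.elim (Sum.elim (fun _ => 0) u) fun _ => 0
  have h1 : Module.finrank ℂ (KK m α c mu) ≤
      Module.finrank ℂ (KK m ((α ⊕ β) ⊕ Unit) d mu) := by
    refine finrank_up hα (d := c) (d' := d) (fun j => rfl) (fun j hj => ?_) mu
    rcases j with (j | j) | j
    · exact absurd ⟨j, rfl⟩ hj
    · rfl
    · rfl
  have h2 := fill (m := m) mu s U (by
      rintro ((j | j) | j)
      · exact Nat.zero_le _
      · exact hu j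
      · exact Nat.zero_le _) (Finset.univ.map ⟨eβ, hβ⟩) (Finset.univ.map ⟨eα, hα⟩)
      (Sum.inr ()) d (by
        rw [Finset.disjoint_left]
        intro x hx hx'
        simp only [Finset.mem_map, Finset.mem_univ, true_and, Function.Embedding.coeFn_mk] at hx hx'
        obtain ⟨a, rfl⟩ := hx
        obtain ⟨b, hb⟩ := hx'
        simp [eα, eβ] at hb) (by simp [eα]) (by simp [eβ]) (by
        intro j hj
        simp only [Finset.mem_map, Finset.mem_univ, true_and, Function.Embedding.coeFn_mk] at hj
        obtain ⟨a, rfl⟩ := hj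
        exact hc a) (by
        intro j hj
        simp only [Finset.mem_map, Finset.mem_univ, true_and, Function.Embedding.coeFn_mk] at hj
        obtain ⟨a, rfl⟩ := hj
        rfl) (by
        rw [Finset.sum_map, Finset.sum_map]
        exact hsum)
  refine h1.trans (h2.trans ?_)
  refine finrank_down hβ (fun j => ?_) (fun j hj => ?_) mu
  · have hmem : eβ j ∈ Finset.univ.map (⟨eβ, hβ⟩ : β ↪ (α ⊕ β) ⊕ Unit) :=
      Finset.mem_map_of_mem ⟨eβ, hβ⟩ (Finset.mem_univ j)
    rw [if_pos hmem]
    rfl
  · rcases j with (j | j) | j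
    · rw [if_neg (by simp [eβ]), if_pos]
      exact Or.inl (Finset.mem_map_of_mem ⟨eα, hα⟩ (Finset.mem_univ j))
    · exact absurd ⟨j, rfl⟩ hj
    · rw [if_neg (by simp [eβ]), if_pos]
      exact Or.inr rfl

end Vale.Agent.P181.TRT.H23
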